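import Vale.Agent.Lib.P262.Planar

namespace Vale.Agent.Lib.P262

open Finset

/-- The vectors of the construction in `ℝ^(n+2)`: for `i < n` the `i`-th basis vector, for
`i ≥ n` the planar vector `(A (i-n), B (i-n))` placed in the last two coordinates. -/
noncomputable def embVec (n : ℕ) (A B : ℕ → ℝ) (i : ℕ) : EuclideanSpace ℝ (Fin (n + 2)) :=
  WithLp.toLp 2 (fun c : Fin (n + 2) =>
    if (c : ℕ) < n then (if (c : ℕ) = i then 1 else 0)
    else if i < n then 0
    else if (c : ℕ) = n then A (i - n) else B (i - n))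

theorem embVec_apply (n : ℕ) (A B : ℕ → ℝ) (i : ℕ) (c : Fin (n + 2)) :
    embVec n A B i c = if (c : ℕ) < n then (if (c : ℕ) = i then 1 else 0)
      else if i < n then 0
      else if (c : ℕ) = n then A (i - n) else B (i - n) := rfl

theorem sq_norm_split (n : ℕ) (x : EuclideanSpace ℝ (Fin (n + 2))) :
    ‖x‖ ^ 2 = ∑ c : Fin n, (x (Fin.castSucc (Fin.castSucc c))) ^ 2
      + (x (Fin.castSucc (Fin.last n))) ^ 2 + (x (Fin.last (n + 1))) ^ 2 := by
  rw [EuclideanSpace.real_norm_sq_eq, Fin.sum_univ_castSucc, Fin.sum_univ_castSucc]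

theorem sum_smul_apply (n : ℕ) (s : Finset ℕ) (ε : ℕ → ℝ)
    (v : ℕ → EuclideanSpace ℝ (Fin (n + 2))) (c : Fin (n + 2)) :
    (∑ i ∈ s, ε i • v i) c = ∑ i ∈ s, ε i * v i c := by
  have h : (∑ i ∈ s, ε i • v i).ofLp = ∑ i ∈ s, (ε i • v i).ofLp := WithLp.ofLp_sum _ _ _ _
  have h2 := congrFun h c
  simp only [Finset.sum_apply] at h2
  rw [h2]
  rfl

theorem embVec_norm (n : ℕ) (A B : ℕ → ℝ) (hAB : ∀ i, A i ^ 2 + B i ^ 2 = 1) (i : ℕ) :
    ‖embVec n A B i‖ = 1 := by
  have h : ‖embVec n A B i‖ ^ 2 = 1 := by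
    rw [sq_norm_split]
    have hn1 : ¬ (n + 1 < n) := by omega
    simp only [embVec_apply, Fin.val_castSucc, Fin.val_last, Fin.is_lt, if_true,
      lt_irrefl, if_false, hn1]
    by_cases hi : i < n
    · simp only [hi, if_true]
      have : ∑ c : Fin n, (if (c : ℕ) = i then (1 : ℝ) else 0) ^ 2 = 1 := by
        rw [Finset.sum_eq_single (⟨i, hi⟩ : Fin n)]
        · simp
        · intro b _ hb
          have : (b : ℕ) ≠ i := fun h => hb (Fin.ext h)
          simp [this]
        · intro h; exact absurd (Finset.mem_univ _) h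
      rw [this]; simp
    · simp only [hi, if_false]
      have : ∑ c : Fin n, (if (c : ℕ) = i then (1 : ℝ) else 0) ^ 2 = 0 := by
        apply Finset.sum_eq_zero
        intro c _
        have : (c : ℕ) ≠ i := by
          have := c.isLt
          omega
        simp [this]
      rw [this]
      have hn : ¬ (n + 1 = n) := by omega
      simp only [hn, if_false]
      rw [zero_add]
      exact hAB _
  have h0 : 0 ≤ ‖embVec n A B i‖ := norm_nonneg _
  nlinarith

end Vale.Agent.Lib.P262
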