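import Vale.Agent.Lib.P262.Embed

namespace Vale.Agent.Lib.P262

open Finset

theorem coord_low (n K : ℕ) (A B : ℕ → ℝ) (ε : ℕ → ℝ) (hK : n ≤ K) (c : Fin n) :
    (∑ i ∈ range K, ε i • embVec n A B i) (Fin.castSucc (Fin.castSucc c)) = ε c := by
  rw [sum_smul_apply]
  simp only [embVec_apply, Fin.val_castSucc, Fin.is_lt, if_true]
  rw [Finset.sum_eq_single (c : ℕ)]
  · simp
  · intro b _ hb
    simp [Ne.symm hb]
  · intro h
    exfalso
    apply h
    rw [Finset.mem_range]
    have := c.isLt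
    omega

theorem coord_n (n k : ℕ) (A B : ℕ → ℝ) (ε : ℕ → ℝ) :
    (∑ i ∈ range (n + k), ε i • embVec n A B i) (Fin.castSucc (Fin.last n))
      = ∑ i ∈ range k, ε (n + i) * A i := by
  rw [sum_smul_apply, Finset.sum_range_add]
  have h1 : ∑ x ∈ range n, ε x * embVec n A B x (Fin.castSucc (Fin.last n)) = 0 := by
    apply Finset.sum_eq_zero
    intro i hi
    rw [Finset.mem_range] at hi
    simp [embVec_apply, hi]
  rw [h1, zero_add]
  apply Finset.sum_congr rfl
  intro i _
  simp [embVec_apply]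

theorem coord_n1 (n k : ℕ) (A B : ℕ → ℝ) (ε : ℕ → ℝ) :
    (∑ i ∈ range (n + k), ε i • embVec n A B i) (Fin.last (n + 1))
      = ∑ i ∈ range k, ε (n + i) * B i := by
  rw [sum_smul_apply, Finset.sum_range_add]
  have h1 : ∑ x ∈ range n, ε x * embVec n A B x (Fin.last (n + 1)) = 0 := by
    apply Finset.sum_eq_zero
    intro i hi
    rw [Finset.mem_range] at hi
    simp [embVec_apply, hi]
  rw [h1, zero_add]
  apply Finset.sum_congr rfl
  intro i _
  simp [embVec_apply]

theorem force_nat (n j : ℕ) :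
    ∃ v : ℕ → EuclideanSpace ℝ (Fin (n + 2)), (∀ i, ‖v i‖ = 1) ∧
      ∀ ε : ℕ → ℝ, (∀ i, ε i = 1 ∨ ε i = -1) →
        ∃ k, k ≤ n + 1 + j ∧
          (n : ℝ) + 3 - 2 / 2 ^ j ≤ ‖∑ i ∈ range k, ε i • v i‖ ^ 2 := by
  obtain ⟨X, Y, hXY, hforce⟩ :=
    planar_force j 1 0 (3 - 2 / 2 ^ j) (by norm_num) (by ring)
  refine ⟨embVec n (fun i => Nat.casesOn i 1 X) (fun i => Nat.casesOn i 0 Y),
    embVec_norm n _ _ ?_, ?_⟩
  · intro i
    cases i with
    | zero => norm_num
    | succ i => exact hXY i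
  · intro ε hε
    have hεn : ε n * ε n = 1 := by
      rcases hε n with h | h <;> rw [h] <;> norm_num
    obtain ⟨k, hk, hle⟩ := hforce (fun i => ε n * ε (n + (i + 1))) (by
      intro i
      rcases hε n with h | h <;> rcases hε (n + (i + 1)) with h' | h' <;> simp [h, h'])
    refine ⟨n + (k + 1), by omega, ?_⟩
    rw [sq_norm_split, coord_n, coord_n1]
    have hlow : ∑ c : Fin n, ((∑ i ∈ range (n + (k + 1)),
        ε i • embVec n (fun i => Nat.casesOn i 1 X) (fun i => Nat.casesOn i 0 Y) i)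
          (Fin.castSucc (Fin.castSucc c))) ^ 2 = n := by
      have : ∀ c : Fin n, ((∑ i ∈ range (n + (k + 1)),
        ε i • embVec n (fun i => Nat.casesOn i 1 X) (fun i => Nat.casesOn i 0 Y) i)
          (Fin.castSucc (Fin.castSucc c))) ^ 2 = 1 := by
        intro c
        rw [coord_low n _ _ _ ε (by omega) c]
        rcases hε c with h | h <;> rw [h] <;> norm_num
      rw [Finset.sum_congr rfl (fun c _ => this c)]
      simp
    rw [hlow, sum_range_succ', sum_range_succ']
    simp only [Nat.rec_zero, add_zero, mul_one, mul_zero]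
    have hA : ∑ i ∈ range k, ε (n + (i + 1)) * X i + ε n
        = ε n * (1 + ∑ i ∈ range k, (ε n * ε (n + (i + 1))) * X i) := by
      rw [mul_add, mul_one, Finset.mul_sum, add_comm]
      congr 1
      apply Finset.sum_congr rfl
      intro i _
      rw [← mul_assoc, ← mul_assoc, hεn, one_mul]
    have hB : ∑ i ∈ range k, ε (n + (i + 1)) * Y i
        = ε n * (0 + ∑ i ∈ range k, (ε n * ε (n + (i + 1))) * Y i) := by
      rw [zero_add, Finset.mul_sum]
      apply Finset.sum_congr rfl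
      intro i _
      rw [← mul_assoc, ← mul_assoc, hεn, one_mul]
    rw [hA, hB, mul_pow, mul_pow]
    have hsq : ε n ^ 2 = 1 := by rw [sq]; exact hεn
    rw [hsq, one_mul, one_mul]
    linarith

end Vale.Agent.Lib.P262
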