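import Vale.Agent.Lib.P262.KillerData
import Vale.Agent.Lib.P262.helper98.Round
import Vale.Agent.Lib.P262.helper32.Euclid
import Vale.Agent.Lib.P262.helper32.Bridge

namespace Vale.Agent.Lib.P262

/-- The explicit planar sequence (3585 vectors with coordinates in `(1/4)ℤ`). -/
noncomputable def planarKiller : List (ℝ × ℝ) :=
  killerSteps.map (fun v : ℤ × ℤ => ((v.1 : ℝ) / ((128 : ℕ) : ℝ), (v.2 : ℝ) / ((128 : ℕ) : ℝ)))

theorem planarKiller_norm : ∀ p ∈ planarKiller, p.1 ^ 2 + p.2 ^ 2 ≤ 1 := by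
  intro p hp
  unfold planarKiller at hp
  rw [List.mem_map] at hp
  obtain ⟨v, hv, rfl⟩ := hp
  have h := killerSteps_norm v hv
  have h' : ((v.1 : ℝ)) ^ 2 + ((v.2 : ℝ)) ^ 2 ≤ (128 : ℝ) ^ 2 := by exact_mod_cast h
  show ((v.1 : ℝ) / ((128 : ℕ) : ℝ)) ^ 2 + ((v.2 : ℝ) / ((128 : ℕ) : ℝ)) ^ 2 ≤ 1
  rw [div_pow, div_pow, ← add_div, div_le_one (by positivity)]
  exact_mod_cast h

/-- No signed walk along the planar sequence stays inside a closed disc of squared radius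
`501/250`, whatever the centre and the starting point. -/
theorem planarKiller_kills : ∀ c x : ℝ × ℝ,
    ¬ Stay (fun p : ℝ × ℝ => (p.1 - c.1) ^ 2 + (p.2 - c.2) ^ 2 ≤ 501 / 250) planarKiller x :=
  lattice_kill 128 33095 (by norm_num) killerSteps (501 / 250) (1 / 256) (by norm_num)
    (by norm_num)
    killer_kill

/-- Center-free forcing in even dimension `2k ≤ d`. -/
theorem center_free_growth (d k : ℕ) (hk1 : 1 ≤ k) (hk : 2 * k ≤ d) (R : ℝ)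
    (hR : R ^ 2 ≤ 501 / 250 * (k : ℝ)) :
    ∃ (N : ℕ) (v : Fin N → EuclideanSpace ℝ (Fin d)), (∀ i, ‖v i‖ ≤ 1) ∧
      ∀ ε : Fin N → ℝ, (∀ i, ε i = 1 ∨ ε i = -1) → ∀ c : EuclideanSpace ℝ (Fin d),
        ∃ j, j ≤ N ∧ R < ‖(∑ i : Fin N with i.val < j, ε i • v i) - c‖ := by
  obtain ⟨l, hl, hkill⟩ :=
    euclid_killer (501 / 250) planarKiller planarKiller_norm planarKiller_kills d k hk1 hk
  apply forced_of_kills l R hl
  intro c x hs
  apply hkill c x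
  apply Stay.mono _ hs
  intro z hz
  have h0 : 0 ≤ ‖z - c‖ := norm_nonneg _
  have : ‖z - c‖ ^ 2 ≤ R ^ 2 := by nlinarith
  linarith

/-- Forcing of the prefix norms: `σ(d)^2 ≥ (501/250) * k` whenever `2k ≤ d`. -/
theorem growth_constant (d k : ℕ) (hk1 : 1 ≤ k) (hk : 2 * k ≤ d) (R : ℝ)
    (hR : R ^ 2 ≤ 501 / 250 * (k : ℝ)) :
    ∃ (N : ℕ) (v : Fin N → EuclideanSpace ℝ (Fin d)), (∀ i, ‖v i‖ ≤ 1) ∧
      ∀ ε : Fin N → ℝ, (∀ i, ε i = 1 ∨ ε i = -1) →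
        ∃ j, j ≤ N ∧ R < ‖∑ i : Fin N with i.val < j, ε i • v i‖ := by
  obtain ⟨N, v, hv, h⟩ := center_free_growth d k hk1 hk R hR
  refine ⟨N, v, hv, fun ε hε => ?_⟩
  obtain ⟨j, hj, hlt⟩ := h ε hε 0
  exact ⟨j, hj, by simpa using hlt⟩

end Vale.Agent.Lib.P262
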