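import Vale.Agent.Lib.P262.Force

namespace Vale.Agent.Lib.P262

open Finset

theorem sum_fin_filter_eq {M : Type*} [AddCommMonoid M] (N k : ℕ) (hk : k ≤ N) (f : ℕ → M) :
    ∑ i : Fin N with i.val < k, f i = ∑ i ∈ range k, f i := by
  rw [Finset.sum_filter, Fin.sum_univ_eq_sum_range (fun i => if i < k then f i else 0) N,
    ← Finset.sum_filter]
  apply Finset.sum_congr _ (fun _ _ => rfl)
  ext i
  simp only [Finset.mem_filter, Finset.mem_range]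
  omega

theorem force_fin (n j : ℕ) :
    ∃ v : Fin (n + 1 + j) → EuclideanSpace ℝ (Fin (n + 2)), (∀ i, ‖v i‖ = 1) ∧
      ∀ ε : Fin (n + 1 + j) → ℝ, (∀ i, ε i = 1 ∨ ε i = -1) →
        ∃ k, k ≤ n + 1 + j ∧
          (n : ℝ) + 3 - 2 / 2 ^ j ≤ ‖∑ i : Fin (n + 1 + j) with i.val < k, ε i • v i‖ ^ 2 := by
  obtain ⟨v, hv, hforce⟩ := force_nat n j
  refine ⟨fun i => v i, fun i => hv i, ?_⟩
  intro ε hε
  obtain ⟨k, hk, hle⟩ := hforce (fun i => if h : i < n + 1 + j then ε ⟨i, h⟩ else 1) (by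
    intro i
    by_cases h : i < n + 1 + j
    · simp only [h, dif_pos]; exact hε _
    · simp only [h, dif_neg, not_false_eq_true]; left; trivial)
  refine ⟨k, hk, ?_⟩
  have key : ∑ i : Fin (n + 1 + j) with i.val < k, ε i • v i
      = ∑ i ∈ range k, (if h : i < n + 1 + j then ε ⟨i, h⟩ else 1) • v i := by
    rw [← sum_fin_filter_eq (n + 1 + j) k hk
      (fun i => (if h : i < n + 1 + j then ε ⟨i, h⟩ else 1) • v i)]
    apply Finset.sum_congr rfl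
    intro i _
    simp only [i.isLt, dif_pos, Fin.eta]
  rw [key]
  exact hle

/-- Quantitative lower bound: `σ(d, N)^2 ≥ d + 1 - 2^(d - N)` for `d ≥ 2`, `N ≥ d - 1`. -/
theorem lower_bound_quant (d N : ℕ) (hd : 2 ≤ d) (hN : d ≤ N + 1) :
    ∃ v : Fin N → EuclideanSpace ℝ (Fin d), (∀ i, ‖v i‖ = 1) ∧
      ∀ ε : Fin N → ℝ, (∀ i, ε i = 1 ∨ ε i = -1) →
        ∃ k, k ≤ N ∧
          (d : ℝ) + 1 - 2 ^ d / 2 ^ N ≤ ‖∑ i : Fin N with i.val < k, ε i • v i‖ ^ 2 := by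
  obtain ⟨n, rfl⟩ : ∃ n, d = n + 2 := ⟨d - 2, by omega⟩
  obtain ⟨j, rfl⟩ : ∃ j, N = n + 1 + j := ⟨N - (n + 1), by omega⟩
  obtain ⟨v, hv, hforce⟩ := force_fin n j
  refine ⟨v, hv, ?_⟩
  intro ε hε
  obtain ⟨k, hk, hle⟩ := hforce ε hε
  refine ⟨k, hk, ?_⟩
  have e : ((n + 2 : ℕ) : ℝ) + 1 - 2 ^ (n + 2) / 2 ^ (n + 1 + j) = (n : ℝ) + 3 - 2 / 2 ^ j := by
    have h2 : (2 : ℝ) ^ (n + 2) / 2 ^ (n + 1 + j) = 2 / 2 ^ j := by
      rw [pow_add, pow_add, pow_add]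
      field_simp
    rw [h2]
    push_cast
    ring
  rw [e]
  exact hle

/-- `σ(d) ≥ √(d+1)` for `d ≥ 2`. -/
theorem lower_bound_sup (d : ℕ) (hd : 2 ≤ d) (R : ℝ) (hR : R < Real.sqrt (d + 1)) :
    ∃ (N : ℕ) (v : Fin N → EuclideanSpace ℝ (Fin d)), (∀ i, ‖v i‖ ≤ 1) ∧
      ∀ ε : Fin N → ℝ, (∀ i, ε i = 1 ∨ ε i = -1) →
        ∃ k, k ≤ N ∧ R < ‖∑ i : Fin N with i.val < k, ε i • v i‖ := by
  by_cases hR0 : R < 0
  · refine ⟨0, fun i => 0, fun i => by simp, fun ε _ => ⟨0, le_refl _, ?_⟩⟩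
    simpa using hR0
  · rw [not_lt] at hR0
    have hd1 : (0 : ℝ) ≤ (d : ℝ) + 1 := by positivity
    have hR2 : R ^ 2 < (d : ℝ) + 1 := by
      have := Real.sq_sqrt hd1
      have h3 : R ^ 2 < Real.sqrt ((d : ℝ) + 1) ^ 2 := by
        apply pow_lt_pow_left₀ hR hR0 (by norm_num)
      linarith
    -- choose M with 2^d / 2^M small
    have hgap : 0 < ((d : ℝ) + 1 - R ^ 2) / 2 ^ d := by
      apply div_pos (by linarith) (by positivity)
    obtain ⟨M, hM⟩ := exists_pow_lt_of_lt_one hgap (by norm_num : (1 / 2 : ℝ) < 1)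
    obtain ⟨v, hv, hforce⟩ := lower_bound_quant d (d + M) hd (by omega)
    refine ⟨d + M, v, fun i => (hv i).le, ?_⟩
    intro ε hε
    obtain ⟨k, hk, hle⟩ := hforce ε hε
    refine ⟨k, hk, ?_⟩
    have hsmall : (2 : ℝ) ^ d / 2 ^ (d + M) < (d : ℝ) + 1 - R ^ 2 := by
      have h2 : (2 : ℝ) ^ d / 2 ^ (d + M) = (1 / 2) ^ M := by
        rw [pow_add, one_div, inv_pow]
        field_simp
      rw [h2]
      have hpos : (0 : ℝ) < 2 ^ d := by positivity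
      rw [lt_div_iff₀ hpos] at hM
      have h1 : (1 : ℝ) ≤ 2 ^ d := one_le_pow₀ (by norm_num)
      have h0 : (0 : ℝ) ≤ (1 / 2) ^ M := by positivity
      nlinarith
    have hlt : R ^ 2 < ‖∑ i : Fin (d + M) with i.val < k, ε i • v i‖ ^ 2 := by linarith
    exact lt_of_pow_lt_pow_left₀ 2 (norm_nonneg _) hlt

end Vale.Agent.Lib.P262
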