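import Vale.Agent.Lib.P262.Stay

namespace Vale.Agent.Lib.P262

/-- Largest `s ≤ n` with `s^2 + y2 ≤ K` (and `0` if there is none). -/
def halfWidth (K y2 : ℕ) : ℕ → ℕ
  | 0 => 0
  | n + 1 => if (n + 1) ^ 2 + y2 ≤ K then n + 1 else halfWidth K y2 n

theorem halfWidth_le (K y2 : ℕ) : ∀ n, halfWidth K y2 n ≤ n
  | 0 => le_refl 0
  | n + 1 => by
    unfold halfWidth
    split_ifs
    · exact le_refl _
    · exact Nat.le_succ_of_le (halfWidth_le K y2 n)

theorem le_halfWidth (K y2 : ℕ) : ∀ (n x : ℕ), x ≤ n → x ^ 2 + y2 ≤ K → x ≤ halfWidth K y2 n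
  | 0, x, hx, _ => by simpa [halfWidth] using hx
  | n + 1, x, hx, h => by
    unfold halfWidth
    split_ifs with hc
    · exact hx
    · have hxn : x ≤ n := by
        by_contra hn
        have hxe : x = n + 1 := by omega
        rw [hxe] at h
        exact hc h
      exact le_halfWidth K y2 n x hxn h

/-- The row mask of the disc `x^2 + y^2 ≤ K` at height `y = j - R`; bit `x + R` stands for `x`. -/
def discRow (K R j : ℕ) : ℕ :=
  (2 ^ (2 * halfWidth K ((((j : ℤ) - R).natAbs) ^ 2) R + 1) - 1)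
    <<< (R - halfWidth K ((((j : ℤ) - R).natAbs) ^ 2) R)

/-- Pack rows of width `w` into one number. -/
def pack (w : ℕ) : List ℕ → ℕ
  | [] => 0
  | r :: rs => r ||| (pack w rs <<< w)

theorem testBit_pack (w : ℕ) : ∀ (rs : List ℕ) (i j : ℕ), j < w → (∀ r ∈ rs, r < 2 ^ w) →
    (pack w rs).testBit (j + w * i) = (rs.getD i 0).testBit j
  | [], i, j, _, _ => by simp [pack]
  | r :: rs, 0, j, hj, _ => by
    simp only [pack, Nat.mul_zero, Nat.add_zero, Nat.testBit_lor, Nat.testBit_shiftLeft,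
      List.getD_cons_zero]
    have : ¬ (j ≥ w) := by omega
    simp [this]
  | r :: rs, i + 1, j, hj, hr => by
    have hr0 : r < 2 ^ w := hr r List.mem_cons_self
    have hrs : ∀ r' ∈ rs, r' < 2 ^ w := fun r' h' => hr r' (List.mem_cons_of_mem _ h')
    have h1 : r.testBit (j + w * (i + 1)) = false := by
      apply Nat.testBit_lt_two_pow
      calc r < 2 ^ w := hr0
        _ ≤ 2 ^ (j + w * (i + 1)) := Nat.pow_le_pow_right (by norm_num) (by nlinarith)
    have h2 : j + w * (i + 1) ≥ w := by nlinarith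
    have h3 : j + w * (i + 1) - w = j + w * i := by
      rw [Nat.mul_succ]; omega
    simp only [pack, Nat.testBit_lor, Nat.testBit_shiftLeft, h1, h2, h3, List.getD_cons_succ,
      decide_true, Bool.true_and, Bool.false_or]
    exact testBit_pack w rs i j hj hrs

/-- The bitmask of the integer disc `x^2 + y^2 ≤ K`, rows of width `w`. -/
def discMask (K R w : ℕ) : ℕ :=
  pack w ((List.range (2 * R + 1)).map (discRow K R))

/-- Position of the lattice point `z` in the mask. -/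
def enc (R w : ℕ) (z : ℤ × ℤ) : ℕ := (z.1 + R).toNat + w * (z.2 + R).toNat

theorem discRow_lt (K R w j : ℕ) (hw : 2 * R + 1 ≤ w) : discRow K R j < 2 ^ w := by
  unfold discRow
  set s := halfWidth K ((((j : ℤ) - R).natAbs) ^ 2) R with hs
  have hsR : s ≤ R := halfWidth_le _ _ _
  rw [Nat.shiftLeft_eq]
  have h1 : 2 ^ (2 * s + 1) - 1 < 2 ^ (2 * s + 1) := Nat.sub_lt (Nat.pow_pos (by norm_num)) (by norm_num)
  calc (2 ^ (2 * s + 1) - 1) * 2 ^ (R - s) < 2 ^ (2 * s + 1) * 2 ^ (R - s) :=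
        Nat.mul_lt_mul_of_pos_right h1 (Nat.pow_pos (by norm_num))
    _ = 2 ^ (2 * s + 1 + (R - s)) := by rw [← Nat.pow_add]
    _ ≤ 2 ^ w := Nat.pow_le_pow_right (by norm_num) (by omega)

theorem abs_le_of_sq_le (K R : ℕ) (hR : K < (R + 1) ^ 2) (a : ℤ) (h : a ^ 2 ≤ (K : ℤ)) :
    -(R : ℤ) ≤ a ∧ a ≤ R := by
  have hK : (K : ℤ) < ((R : ℤ) + 1) ^ 2 := by exact_mod_cast hR
  constructor <;> nlinarith

theorem discMask_testBit (K R w : ℕ) (hR : K < (R + 1) ^ 2) (hw : 2 * R + 1 ≤ w) (z : ℤ × ℤ)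
    (hz : z.1 ^ 2 + z.2 ^ 2 ≤ (K : ℤ)) : (discMask K R w).testBit (enc R w z) = true := by
  have h1 := abs_le_of_sq_le K R hR z.1 (by nlinarith [sq_nonneg z.2])
  have h2 := abs_le_of_sq_le K R hR z.2 (by nlinarith [sq_nonneg z.1])
  unfold discMask enc
  rw [testBit_pack w _ _ _ (by omega)
    (by
      intro r hr
      rw [List.mem_map] at hr
      obtain ⟨j, -, rfl⟩ := hr
      exact discRow_lt K R w j hw)]
  have hj : (z.2 + R).toNat < 2 * R + 1 := by omega
  have hget : ((List.range (2 * R + 1)).map (discRow K R)).getD (z.2 + R).toNat 0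
      = discRow K R (z.2 + R).toNat := by
    rw [List.getD_eq_getElem?_getD, List.getElem?_map, List.getElem?_range hj]
    rfl
  rw [hget]
  unfold discRow
  have hjj : (((z.2 + R).toNat : ℤ) - R).natAbs = z.2.natAbs := by
    rw [Int.toNat_of_nonneg (by omega)]
    congr 1
    ring
  rw [hjj]
  set s := halfWidth K (z.2.natAbs ^ 2) R with hs
  have hx : z.1.natAbs ≤ s := by
    apply le_halfWidth
    · omega
    · have : ((z.1.natAbs ^ 2 + z.2.natAbs ^ 2 : ℕ) : ℤ) ≤ (K : ℤ) := by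
        push_cast
        rw [sq_abs, sq_abs]
        exact hz
      exact_mod_cast this
  have hsR : s ≤ R := halfWidth_le _ _ _
  rw [Nat.testBit_shiftLeft, Nat.testBit_two_pow_sub_one]
  have g1 : (z.1 + R).toNat ≥ R - s := by omega
  have g2 : (z.1 + R).toNat - (R - s) < 2 * s + 1 := by omega
  simp [g1, g2]

theorem enc_add (K R w : ℕ) (hR : K < (R + 1) ^ 2) (z v : ℤ × ℤ)
    (hz : z.1 ^ 2 + z.2 ^ 2 ≤ (K : ℤ)) (hzv : (z + v).1 ^ 2 + (z + v).2 ^ 2 ≤ (K : ℤ)) :
    (enc R w (z + v) : ℤ) = enc R w z + (v.1 + w * v.2) := by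
  have h1 := abs_le_of_sq_le K R hR z.1 (by nlinarith [sq_nonneg z.2])
  have h2 := abs_le_of_sq_le K R hR z.2 (by nlinarith [sq_nonneg z.1])
  have h3 := abs_le_of_sq_le K R hR (z + v).1 (by nlinarith [sq_nonneg (z + v).2])
  have h4 := abs_le_of_sq_le K R hR (z + v).2 (by nlinarith [sq_nonneg (z + v).1])
  unfold enc
  simp only [Prod.fst_add, Prod.snd_add] at h3 h4 ⊢
  push_cast
  rw [Int.toNat_of_nonneg (by omega), Int.toNat_of_nonneg (by omega),
    Int.toNat_of_nonneg (by omega), Int.toNat_of_nonneg (by omega)]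
  ring

/-- One step of the mask dynamics. -/
def maskStep (W w m : ℕ) (v : ℤ × ℤ) : ℕ :=
  W &&& ((m <<< (v.1 + (w : ℤ) * v.2).natAbs) ||| (m >>> (v.1 + (w : ℤ) * v.2).natAbs))

theorem ne_zero_of_testBit {m i : ℕ} (h : m.testBit i = true) : m ≠ 0 := by
  intro h0
  rw [h0, Nat.zero_testBit] at h
  exact Bool.false_ne_true h

theorem maskStep_testBit (K R w : ℕ) (hR : K < (R + 1) ^ 2) (hw : 2 * R + 1 ≤ w) (m : ℕ)
    (x v : ℤ × ℤ) (hx : x.1 ^ 2 + x.2 ^ 2 ≤ (K : ℤ)) (hm : m.testBit (enc R w x) = true) :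
    ((x + v).1 ^ 2 + (x + v).2 ^ 2 ≤ (K : ℤ) →
      (maskStep (discMask K R w) w m v).testBit (enc R w (x + v)) = true) ∧
    ((x - v).1 ^ 2 + (x - v).2 ^ 2 ≤ (K : ℤ) →
      (maskStep (discMask K R w) w m v).testBit (enc R w (x - v)) = true) := by
  constructor
  · intro hy
    have hW := discMask_testBit K R w hR hw (x + v) hy
    have he := enc_add K R w hR x v hx hy
    unfold maskStep
    rw [Nat.testBit_land, hW, Nat.testBit_lor, Nat.testBit_shiftLeft, Nat.testBit_shiftRight]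
    rcases le_or_gt 0 (v.1 + (w : ℤ) * v.2) with hk | hk
    · have e1 : enc R w (x + v) = enc R w x + (v.1 + (w : ℤ) * v.2).natAbs := by omega
      have e2 : enc R w (x + v) ≥ (v.1 + (w : ℤ) * v.2).natAbs := by omega
      have e3 : enc R w (x + v) - (v.1 + (w : ℤ) * v.2).natAbs = enc R w x := by omega
      simp [e2, e3, hm]
    · have e1 : (v.1 + (w : ℤ) * v.2).natAbs + enc R w (x + v) = enc R w x := by omega
      simp [e1, hm]
  · intro hy
    have hW := discMask_testBit K R w hR hw (x - v) hy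
    have he := enc_add K R w hR (x - v) v hy (by rw [sub_add_cancel]; exact hx)
    rw [sub_add_cancel] at he
    unfold maskStep
    rw [Nat.testBit_land, hW, Nat.testBit_lor, Nat.testBit_shiftLeft, Nat.testBit_shiftRight]
    rcases le_or_gt 0 (v.1 + (w : ℤ) * v.2) with hk | hk
    · have e1 : (v.1 + (w : ℤ) * v.2).natAbs + enc R w (x - v) = enc R w x := by omega
      simp [e1, hm]
    · have e1 : enc R w (x - v) = enc R w x + (v.1 + (w : ℤ) * v.2).natAbs := by omega
      have e2 : enc R w (x - v) ≥ (v.1 + (w : ℤ) * v.2).natAbs := by omega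
      have e3 : enc R w (x - v) - (v.1 + (w : ℤ) * v.2).natAbs = enc R w x := by omega
      simp [e2, e3, hm]

/-- Run the mask dynamics along a list of steps. -/
def maskFold (W w : ℕ) : List (ℤ × ℤ) → ℕ → ℕ
  | [], m => m
  | v :: l, m => maskFold W w l (maskStep W w m v)

theorem maskFold_sound (K R w : ℕ) (hR : K < (R + 1) ^ 2) (hw : 2 * R + 1 ≤ w) :
    ∀ (l : List (ℤ × ℤ)) (m : ℕ) (x : ℤ × ℤ),
      Stay (fun Z : ℤ × ℤ => Z.1 ^ 2 + Z.2 ^ 2 ≤ (K : ℤ)) l x →
        m.testBit (enc R w x) = true → maskFold (discMask K R w) w l m ≠ 0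
  | [], m, x, _, hm => ne_zero_of_testBit hm
  | v :: l, m, x, hs, hm => by
    have hx : x.1 ^ 2 + x.2 ^ 2 ≤ (K : ℤ) := hs.1
    obtain ⟨hplus, hminus⟩ := maskStep_testBit K R w hR hw m x v hx hm
    rcases hs.2 with h2 | h2
    · exact maskFold_sound K R w hR hw l _ (x + v) h2 (hplus h2.head)
    · exact maskFold_sound K R w hR hw l _ (x - v) h2 (hminus h2.head)

/-- Certificate soundness: if the mask dynamics started from the full disc dies, then no
signed walk along `V` stays inside the integer disc `x^2 + y^2 ≤ K`, whatever its start. -/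
theorem maskFold_kill (K R w : ℕ) (hR : K < (R + 1) ^ 2) (hw : 2 * R + 1 ≤ w) (V : List (ℤ × ℤ))
    (hrun : maskFold (discMask K R w) w V (discMask K R w) = 0) :
    ∀ Z0 : ℤ × ℤ, ¬ Stay (fun Z : ℤ × ℤ => Z.1 ^ 2 + Z.2 ^ 2 ≤ (K : ℤ)) V Z0 := by
  intro Z0 hs
  exact maskFold_sound K R w hR hw V (discMask K R w) Z0 hs
    (discMask_testBit K R w hR hw Z0 hs.head) hrun

end Vale.Agent.Lib.P262
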