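import Mathlib

namespace Vale.Agent.Lib.P262

open Finset

/-- A unit vector in the plane with prescribed inner product `c` against `(px, py)`. -/
theorem exists_unit_inner (px py c : ℝ) (ha : 1 ≤ px ^ 2 + py ^ 2) (hc : c ^ 2 ≤ 1 / 4) :
    ∃ x y : ℝ, x ^ 2 + y ^ 2 = 1 ∧ px * x + py * y = c := by
  set a := px ^ 2 + py ^ 2 with ha_def
  have ha0 : 0 < a := by linarith
  have hq : 0 ≤ (1 - c ^ 2 / a) / a := by
    apply div_nonneg _ ha0.le
    have : c ^ 2 / a ≤ 1 := by
      rw [div_le_one ha0]; linarith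
    linarith
  set t := Real.sqrt ((1 - c ^ 2 / a) / a) with ht_def
  have ht : t ^ 2 = (1 - c ^ 2 / a) / a := Real.sq_sqrt hq
  refine ⟨c / a * px - t * py, c / a * py + t * px, ?_, ?_⟩
  · have h1 : (c / a * px - t * py) ^ 2 + (c / a * py + t * px) ^ 2
        = (c / a) ^ 2 * a + t ^ 2 * a := by rw [ha_def]; ring
    rw [h1, ht]
    field_simp
    ring
  · have h2 : px * (c / a * px - t * py) + py * (c / a * py + t * px) = c / a * a := by
      rw [ha_def]; ring
    rw [h2]
    field_simp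

/-- The planar forcing lemma: from a point `p` with `|p|^2 ≥ 1`, there are unit vectors
such that every signing reaches squared norm `|p|^2 + 2 - 2/2^j` within `j` steps. -/
theorem planar_force (j : ℕ) : ∀ (px py f : ℝ), 1 ≤ px ^ 2 + py ^ 2 →
    f = px ^ 2 + py ^ 2 + 2 - 2 / 2 ^ j →
    ∃ X Y : ℕ → ℝ, (∀ i, X i ^ 2 + Y i ^ 2 = 1) ∧
      ∀ ε : ℕ → ℝ, (∀ i, ε i = 1 ∨ ε i = -1) →
        ∃ k, k ≤ j ∧ f ≤ (px + ∑ i ∈ range k, ε i * X i) ^ 2
          + (py + ∑ i ∈ range k, ε i * Y i) ^ 2 := by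
  induction j with
  | zero =>
    intro px py f _ hf
    refine ⟨fun _ => 1, fun _ => 0, fun i => by norm_num, fun ε _ => ⟨0, le_refl _, ?_⟩⟩
    simp only [range_zero, sum_empty, add_zero]
    rw [hf]; norm_num
  | succ j ih =>
    intro px py f ha hf
    have hpow : (0:ℝ) < 2 ^ j := by positivity
    have hpow1 : (1:ℝ) ≤ 2 ^ j := one_le_pow₀ (by norm_num)
    have hinv : (1:ℝ) / 2 ^ j ≤ 1 := by
      rw [div_le_one hpow]; exact hpow1
    have hinv0 : (0:ℝ) < 1 / 2 ^ j := by positivity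
    set c : ℝ := (1 / 2 ^ j - 1) / 2 with hc_def
    have hc : c ^ 2 ≤ 1 / 4 := by
      have h1 : -(1/2 : ℝ) ≤ c := by rw [hc_def]; linarith
      have h2 : c ≤ 0 := by rw [hc_def]; linarith
      nlinarith
    obtain ⟨x0, y0, hunit, hinner⟩ := exists_unit_inner px py c ha hc
    have hnew : (px + x0) ^ 2 + (py + y0) ^ 2 = px ^ 2 + py ^ 2 + 1 / 2 ^ j := by
      have : (px + x0) ^ 2 + (py + y0) ^ 2
          = px ^ 2 + py ^ 2 + (x0 ^ 2 + y0 ^ 2) + 2 * (px * x0 + py * y0) := by ring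
      rw [this, hunit, hinner, hc_def]; ring
    have hdev : (px - x0) ^ 2 + (py - y0) ^ 2 = f := by
      have : (px - x0) ^ 2 + (py - y0) ^ 2
          = px ^ 2 + py ^ 2 + (x0 ^ 2 + y0 ^ 2) - 2 * (px * x0 + py * y0) := by ring
      rw [this, hunit, hinner, hc_def, hf, pow_succ]; field_simp; ring
    have ha' : 1 ≤ (px + x0) ^ 2 + (py + y0) ^ 2 := by rw [hnew]; linarith
    have hf' : f = (px + x0) ^ 2 + (py + y0) ^ 2 + 2 - 2 / 2 ^ j := by
      rw [hnew, hf, pow_succ]; field_simp; ring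
    obtain ⟨X', Y', hXY, hforce⟩ := ih (px + x0) (py + y0) f ha' hf'
    refine ⟨fun i => Nat.casesOn i x0 X', fun i => Nat.casesOn i y0 Y', ?_, ?_⟩
    · intro i
      cases i with
      | zero => exact hunit
      | succ i => exact hXY i
    · intro ε hε
      rcases hε 0 with h0 | h0
      · obtain ⟨k, hk, hle⟩ := hforce (fun i => ε (i + 1)) (fun i => hε (i + 1))
        refine ⟨k + 1, Nat.succ_le_succ hk, ?_⟩
        rw [sum_range_succ', sum_range_succ']
        simp only [h0, one_mul, Nat.rec_zero]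
        have e1 : px + (∑ i ∈ range k, ε (i + 1) * X' i + x0)
            = px + x0 + ∑ i ∈ range k, ε (i + 1) * X' i := by ring
        have e2 : py + (∑ i ∈ range k, ε (i + 1) * Y' i + y0)
            = py + y0 + ∑ i ∈ range k, ε (i + 1) * Y' i := by ring
        rw [e1, e2]
        exact hle
      · refine ⟨1, Nat.succ_le_succ (Nat.zero_le _), ?_⟩
        simp only [range_one, sum_singleton, h0, Nat.rec_zero]
        have e1 : px + -1 * x0 = px - x0 := by ring
        have e2 : py + -1 * y0 = py - y0 := by ring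
        rw [e1, e2, hdev]

end Vale.Agent.Lib.P262
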