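import Mathlib

namespace Vale.Agent.Lib.P262

/-- `Stay P l x`: starting at `x`, the steps of `l` can be given signs so that the walk
stays inside `P` at all times (start included). -/
def Stay {E : Type*} [AddGroup E] (P : E → Prop) : List E → E → Prop
  | [], x => P x
  | v :: l, x => P x ∧ (Stay P l (x + v) ∨ Stay P l (x - v))

theorem Stay.head {E : Type*} [AddGroup E] {P : E → Prop} :
    ∀ {l : List E} {x : E}, Stay P l x → P x
  | [], _, h => h
  | _ :: _, _, h => h.1

theorem Stay.mono {E : Type*} [AddGroup E] {P Q : E → Prop} (h : ∀ x, P x → Q x) :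
    ∀ {l : List E} {x : E}, Stay P l x → Stay Q l x
  | [], x, hs => h x hs
  | _ :: _, x, hs => ⟨h x hs.1, hs.2.imp (Stay.mono h) (Stay.mono h)⟩

/-- A walk that stays inside `P` along `l₁ ++ l₂` stays inside `P` along `l₁`. -/
theorem Stay.append_left {E : Type*} [AddGroup E] {P : E → Prop} (l₂ : List E) :
    ∀ {l₁ : List E} {x : E}, Stay P (l₁ ++ l₂) x → Stay P l₁ x
  | [], _, h => h.head
  | _ :: _, _, h => ⟨h.1, h.2.imp (Stay.append_left l₂) (Stay.append_left l₂)⟩

/-- Translation. -/
theorem Stay.translate {E : Type*} [AddCommGroup E] {P : E → Prop} (t : E) :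
    ∀ {l : List E} {x : E}, Stay P l (t + x) → Stay (fun z => P (t + z)) l x
  | [], _, h => h
  | v :: l, x, h => by
    refine ⟨h.1, ?_⟩
    rcases h.2 with h2 | h2
    · left
      apply Stay.translate t
      rwa [add_assoc] at h2
    · right
      apply Stay.translate t
      rwa [add_sub_assoc] at h2

/-- Translation, converse direction. -/
theorem Stay.untranslate {E : Type*} [AddCommGroup E] {P : E → Prop} (t : E) :
    ∀ {l : List E} {x : E}, Stay (fun z => P (t + z)) l x → Stay P l (t + x)
  | [], _, h => h
  | v :: l, x, h => by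
    refine ⟨h.1, ?_⟩
    rcases h.2 with h2 | h2
    · left
      have := Stay.untranslate t h2
      rwa [← add_assoc] at this
    · right
      have := Stay.untranslate t h2
      rwa [← add_sub_assoc] at this

/-- Transfer along an additive map. -/
theorem Stay.map {E F : Type*} [AddGroup E] [AddGroup F] (φ : E → F)
    (hadd : ∀ a b, φ (a + b) = φ a + φ b) (hsub : ∀ a b, φ (a - b) = φ a - φ b)
    {P : F → Prop} :
    ∀ {l : List E} {x : E}, Stay (fun z => P (φ z)) l x → Stay P (l.map φ) (φ x)
  | [], _, h => h
  | v :: l, x, h => by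
    refine ⟨h.1, ?_⟩
    rcases h.2 with h2 | h2
    · left
      have := Stay.map φ hadd hsub h2
      rwa [hadd] at this
    · right
      have := Stay.map φ hadd hsub h2
      rwa [hsub] at this

theorem Stay.of_map {E F : Type*} [AddGroup E] [AddGroup F] (φ : E → F)
    (hadd : ∀ a b, φ (a + b) = φ a + φ b) (hsub : ∀ a b, φ (a - b) = φ a - φ b)
    {P : F → Prop} :
    ∀ {l : List E} {x : E}, Stay P (l.map φ) (φ x) → Stay (fun z => P (φ z)) l x
  | [], _, h => h
  | v :: l, x, h => by
    refine ⟨h.1, ?_⟩
    rcases h.2 with h2 | h2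
    · left
      apply Stay.of_map φ hadd hsub
      rwa [hadd]
    · right
      apply Stay.of_map φ hadd hsub
      rwa [hsub]

/-- Interleaving: a copy of `B` first, and then after every step of `A` a copy of `B`. -/
def interleave {E : Type*} (A B : List E) : List E :=
  B ++ A.flatMap (fun a => a :: B)

theorem interleave_nil {E : Type*} (B : List E) : interleave [] B = B := by
  simp [interleave]

theorem interleave_cons {E : Type*} (a : E) (A B : List E) :
    interleave (a :: A) B = B ++ a :: interleave A B := by
  simp [interleave]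

theorem mem_interleave {E : Type*} {A B : List E} {v : E} (h : v ∈ interleave A B) :
    v ∈ A ∨ v ∈ B := by
  induction A with
  | nil => right; simpa [interleave_nil] using h
  | cons a A ih =>
    rw [interleave_cons] at h
    rcases List.mem_append.1 h with h | h
    · right; exact h
    · rcases List.mem_cons.1 h with h | h
      · left; rw [h]; exact List.mem_cons_self
      · rcases ih h with h | h
        · left; exact List.mem_cons_of_mem _ h
        · right; exact h

/-- Passing through a block of steps that do not change `f`. -/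
theorem Stay.split_block {E : Type*} [AddCommGroup E] {P : E → Prop} (f : E → ℝ)
    (rest : List E) :
    ∀ (B : List E), (∀ b ∈ B, ∀ z, f (z + b) = f z) → ∀ (y : E), Stay P (B ++ rest) y →
      Stay (fun z => P z ∧ f z = f y) B y ∧
        ∃ y', (∀ z, f (y' + z) = f (y + z)) ∧ Stay P rest y'
  | [], _, y, h => ⟨⟨h.head, rfl⟩, y, fun _ => rfl, h⟩
  | b :: B, hB, y, h => by
    have hb : ∀ z, f (z + b) = f z := hB b List.mem_cons_self
    have hb' : ∀ z, f (z - b) = f z := fun z => by
      have := hb (z - b)
      rw [sub_add_cancel] at this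
      exact this.symm
    have hB' : ∀ b' ∈ B, ∀ z, f (z + b') = f z := fun b' hb' => hB b' (List.mem_cons_of_mem _ hb')
    rcases h.2 with h2 | h2
    · obtain ⟨h3, y', hy', h4⟩ := Stay.split_block f rest B hB' (y + b) h2
      refine ⟨⟨⟨h.1, rfl⟩, Or.inl ?_⟩, y', ?_, h4⟩
      · rw [hb y] at h3; exact h3
      · intro z
        rw [hy' z, add_right_comm, hb]
    · obtain ⟨h3, y', hy', h4⟩ := Stay.split_block f rest B hB' (y - b) h2
      refine ⟨⟨⟨h.1, rfl⟩, Or.inr ?_⟩, y', ?_, h4⟩
      · rw [hb' y] at h3; exact h3
      · intro z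
        rw [hy' z, sub_add_eq_add_sub, hb']

/-- The product lemma. If no walk along `A` keeps `f ≤ r₁`, no walk along `B` keeps `g ≤ r₂`,
and the steps of `B` do not change `f`, then no walk along `interleave A B` keeps
`f + g ≤ r₁ + r₂`. -/
theorem kills_interleave {E : Type*} [AddCommGroup E] (f g : E → ℝ) (r₁ r₂ : ℝ)
    (A B : List E) (hf : ∀ b ∈ B, ∀ z, f (z + b) = f z)
    (hA : ∀ x, ¬ Stay (fun z => f z ≤ r₁) A x)
    (hB : ∀ x, ¬ Stay (fun z => g z ≤ r₂) B x) :
    ∀ x, ¬ Stay (fun z => f z + g z ≤ r₁ + r₂) (interleave A B) x := by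
  have key : ∀ (rest : List E) (y : E),
      Stay (fun z => f z + g z ≤ r₁ + r₂) (B ++ rest) y →
        f y ≤ r₁ ∧ ∃ y', (∀ z, f (y' + z) = f (y + z)) ∧
          Stay (fun z => f z + g z ≤ r₁ + r₂) rest y' := by
    intro rest y h
    obtain ⟨h1, y', hy', h2⟩ := Stay.split_block f rest B hf y h
    refine ⟨?_, y', hy', h2⟩
    by_contra hlt
    rw [not_le] at hlt
    apply hB y
    apply Stay.mono _ h1
    intro z hz
    have := hz.1
    rw [hz.2] at this
    linarith
  have main : ∀ (A : List E) (x y : E), (∀ z, f (y + z) = f (x + z)) →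
      Stay (fun z => f z + g z ≤ r₁ + r₂) (interleave A B) y →
        Stay (fun z => f z ≤ r₁) A x := by
    intro A
    induction A with
    | nil =>
      intro x y hxy h
      rw [interleave_nil] at h
      have h' : Stay (fun z => f z + g z ≤ r₁ + r₂) (B ++ []) y := by simpa using h
      obtain ⟨h1, -⟩ := key [] y h'
      have := hxy 0
      simp only [add_zero] at this
      show f x ≤ r₁
      rw [← this]; exact h1
    | cons a A ih =>
      intro x y hxy h
      rw [interleave_cons] at h
      obtain ⟨h1, y', hy', h2⟩ := key _ y h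
      have h0 := hxy 0
      simp only [add_zero] at h0
      refine ⟨by show f x ≤ r₁; rw [← h0]; exact h1, ?_⟩
      rcases h2.2 with h3 | h3
      · left
        apply ih (x + a) (y' + a) _ h3
        intro z
        rw [add_assoc, hy', hxy, add_assoc]
      · right
        apply ih (x - a) (y' - a) _ h3
        intro z
        rw [sub_add_eq_add_sub, add_sub_assoc, hy', hxy, ← add_sub_assoc, ← sub_add_eq_add_sub]
  intro x h
  exact hA x (main A x x (fun _ => rfl) h)

end Vale.Agent.Lib.P262
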